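import Vale.Agent.P117.AN577.Defs

/-! # P117 / AN577 : assembly of AN-117 -/

open MeasureTheory Complex Set
open scoped ENNReal NNReal ContDiff FourierTransform

namespace Vale.Agent.P117.AN577

open Vale.Agent.P122.C2 (Z2 fw fn)
open Vale.Agent.P122.AN (hz dv wg Srf Dat pie desc slp KTw enw StE)
open Vale.Agent.P117.K (E3 grd pc sl1 sl2 Ams den KTd)

theorem srf_mono {C C' : ℝ} {Q : Set (Fin 2 → ℝ)} {h : (Fin 2 → ℝ) → ℝ} {v : (Fin 2 → ℝ) → Fin 2 → ℝ}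
    (hC : 0 < C) (hCC : C ≤ C') (H : Srf C Q h v) : Srf C' Q h v := by
  refine ⟨fun ξ hξ η hη => (H.up ξ hξ η hη).trans (by gcongr), fun ξ hξ η hη => (H.lo ξ hξ η hη).trans (by gcongr),
    fun ξ hξ η hη => (H.tay ξ hξ η hη).trans (by gcongr), fun θ η hη => ?_⟩
  obtain ⟨ψ, h1, h2, h3, h4⟩ := H.col θ η hη
  refine ⟨ψ, le_trans (by gcongr) h1, h2.trans hCC, h3.trans hCC, fun ξ hξ => (h4 ξ hξ).trans (by gcongr)⟩

theorem dat_mono {C C' : ℝ} {K n : ℕ} {Q : Set (Fin 2 → ℝ)} {h : (Fin 2 → ℝ) → ℝ} {v : (Fin 2 → ℝ) → Fin 2 → ℝ}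
    {g : Z2 → E3 → ℂ} (hCC : C ≤ C') (H : Dat C K n Q h v g) : Dat C' K n Q h v g :=
  ⟨H.int, H.cell, H.dom, fun θ ξ hξ k => (H.slope θ ξ hξ k).trans (by gcongr),
    fun θ ξ hξ => (H.near θ ξ hξ).trans (by gcongr)⟩

theorem an117 (hSp : StSph) (hD : StDat) (hDec : StDec) (hK : StKTr) (hL : StLoc) : StAN117 := by
  intro hE ε M0 hε
  obtain ⟨K, hK1, hE1⟩ := hL hE ε hε
  obtain ⟨CS, hCS, hSr⟩ := hSp
  obtain ⟨CD, hCD, hD⟩ := hD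
  obtain ⟨M, C, hM6, hC, hE2⟩ := hE1 (max CS CD) (le_max_of_le_left hCS)
  obtain ⟨M', CK, hMM, hCK, hK2⟩ := hK M M0 hM6
  refine ⟨M', 2 ^ (K * 10), 1 / 100, C * Real.sqrt CK, hMM, ?_, by norm_num, by positivity, ?_⟩
  · calc 2 = 2 ^ 1 := by norm_num
      _ ≤ 2 ^ (K * 10) := Nat.pow_le_pow_right (by norm_num) (by omega)
  intro n o1 o2 A g hn ho1 ho2 hA hA1 hKT
  have hN : (2 ^ (K * 10)) ^ n = 2 ^ (K * (10 * n)) := by rw [← pow_mul]; congr 1; ring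
  rw [hN] at hA hKT
  have hyp : Hyp (1 / 100) K (10 * n) o1 o2 g := by
    refine ⟨Nat.pow_le_pow_right (by norm_num) ?_, by norm_num, le_refl _, ho1, ho2, hA⟩
    nlinarith
  obtain ⟨hd1, hd2, hd3⟩ := hDec _ _ _ _ _ _ hyp
  have hdat := dat_mono (le_max_right CS CD) (hD _ _ _ _ _ _ hyp)
  have hsrf := srf_mono (by linarith) (le_max_left CS CD) hSr
  have key := hE2 (10 * n) QS hS vS (pcs (2 ^ (K * (10 * n))) o1 o2 g) (CK * A) hsrf hdat hd2 (by positivity)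
    (hK2 _ _ _ _ _ _ _ hyp (by linarith) hKT)
  calc ∫⁻ x, ‖𝓕⁻ g x‖ₑ ^ 3 = ∫⁻ z, ‖pie K (10 * n) (pcs (2 ^ (K * (10 * n))) o1 o2 g) 0 0 z‖ₑ ^ 3 := by
        simp only [hd1]
    _ ≤ _ := key
    _ ≤ ENNReal.ofReal (C * 2 ^ (ε * (K * ((10 * n : ℕ) : ℝ))) * Real.sqrt (CK * A)) * ∫⁻ ξ, ‖g ξ‖ₑ ^ 2 := by
        gcongr
    _ = _ := by
        congr 2
        have h1 : (((2 ^ (K * 10) : ℕ) : ℝ) ^ n) ^ ε = 2 ^ (ε * (K * ((10 * n : ℕ) : ℝ))) := by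
          push_cast
          rw [← pow_mul, ← Real.rpow_natCast, ← Real.rpow_mul (by norm_num)]
          congr 1; push_cast; ring
        rw [h1, Real.sqrt_mul hCK, Real.sqrt_eq_rpow A]; ring

end Vale.Agent.P117.AN577
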