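import Vale.Agent.P117.AN577.Geo

/-! # P117 / AN577 : the free pieces decompose `g` -/

open MeasureTheory Complex Set
open scoped ENNReal NNReal ContDiff FourierTransform

namespace Vale.Agent.P117.AN577

open Vale.Agent.P122.C2 (Z2 fw fn)
open Vale.Agent.P122.AN (hz dv wg Srf Dat pie desc slp KTw enw StE)
open Vale.Agent.P117.K (E3 grd pc sl1 sl2 Ams den KTd v1 v2 xist om omv)

theorem measurable_kx (N : ℕ) (o1 o2 : ℝ) : Measurable (kx N o1 o2) := by
  have h0 : ∀ i : Fin 3, Measurable fun ξ : E3 => ξ i := fun i => (EuclideanSpace.proj i : E3 →L[ℝ] ℝ).continuous.measurable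
  have h1 : Measurable v1 := by unfold v1; exact (h0 0).div ((h0 2).const_add 1)
  have h2 : Measurable v2 := by unfold v2; exact (h0 1).div ((h0 2).const_add 1)
  unfold kx
  exact (Int.measurable_floor.comp ((h1.const_mul _).sub_const _)).prodMk (Int.measurable_floor.comp ((h2.const_mul _).sub_const _))

theorem measurable_pcs {N : ℕ} {o1 o2 : ℝ} {g : E3 → ℂ} (hg : Measurable g) (θ : Z2) : Measurable (pcs N o1 o2 g θ) := by
  classical
  have : pcs N o1 o2 g θ = fun ξ => if kx N o1 o2 ξ ∈ grd N ∧ sidx N (kx N o1 o2 ξ) = θ then g ξ else 0 := by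
    ext ξ; rw [pcs_eq]
  rw [this]
  refine Measurable.ite ?_ hg measurable_const
  exact measurable_kx N o1 o2 (MeasurableSet.of_discrete (s := {k : ℤ × ℤ | k ∈ grd N ∧ sidx N k = θ}))

theorem norm_pcs_le (N : ℕ) (o1 o2 : ℝ) (g : E3 → ℂ) (θ : Z2) (ξ : E3) : ‖pcs N o1 o2 g θ ξ‖ ≤ ‖g ξ‖ := by
  classical
  rw [pcs_eq]; split_ifs
  · exact le_rfl
  · simp

theorem integrable_pcs {N : ℕ} {o1 o2 : ℝ} {g : E3 → ℂ} (hg : Measurable g) (hi : Integrable g) (θ : Z2) :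
    Integrable (pcs N o1 o2 g θ) :=
  hi.mono (measurable_pcs hg θ).aestronglyMeasurable (Filter.Eventually.of_forall fun ξ => norm_pcs_le N o1 o2 g θ ξ)

theorem sum_pcs {c1 : ℝ} {K n : ℕ} {o1 o2 : ℝ} {g : E3 → ℂ} (H : Hyp c1 K n o1 o2 g) (ξ : E3) :
    ∑ θ ∈ desc K n 0 0, pcs (2 ^ (K * n)) o1 o2 g θ ξ = g ξ := by
  classical
  by_cases hξ : g ξ = 0
  · rw [hξ]
    refine Finset.sum_eq_zero fun θ _ => ?_
    have := norm_pcs_le (2 ^ (K * n)) o1 o2 g θ ξ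
    rw [hξ, norm_zero] at this
    exact norm_le_zero_iff.1 this
  obtain ⟨_, _, h3, h4⟩ := kx_near H hξ
  have hm := mem_grd H.big h3 h4
  have hs := sidx_mem H.big h3 h4
  rw [Finset.sum_eq_single_of_mem _ hs]
  · rw [pcs_eq, if_pos ⟨hm, rfl⟩]
  · intro θ _ hθ
    rw [pcs_eq, if_neg]
    rintro ⟨_, h⟩; exact hθ h.symm

theorem sum_pcs_sq {c1 : ℝ} {K n : ℕ} {o1 o2 : ℝ} {g : E3 → ℂ} (H : Hyp c1 K n o1 o2 g) (ξ : E3) :
    ∑ θ ∈ desc K n 0 0, ‖pcs (2 ^ (K * n)) o1 o2 g θ ξ‖ₑ ^ 2 ≤ ‖g ξ‖ₑ ^ 2 := by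
  classical
  by_cases hξ : g ξ = 0
  · rw [hξ]
    refine le_of_eq (Finset.sum_eq_zero fun θ _ => ?_) |>.trans bot_le
    have := norm_pcs_le (2 ^ (K * n)) o1 o2 g θ ξ
    rw [hξ, norm_zero] at this
    rw [norm_le_zero_iff.1 this]; simp
  obtain ⟨_, _, h3, h4⟩ := kx_near H hξ
  have hm := mem_grd H.big h3 h4
  have hs := sidx_mem H.big h3 h4
  rw [Finset.sum_eq_single_of_mem _ hs]
  · rw [pcs_eq, if_pos ⟨hm, rfl⟩]
  · intro θ _ hθ
    rw [pcs_eq, if_neg]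
    · simp
    · rintro ⟨_, h⟩; exact hθ h.symm

theorem stDec : StDec := by
  intro c1 K n o1 o2 g H
  have hm := H.ams.meas
  have hi := H.ams.int
  refine ⟨fun z => ?_, fun θ => ?_, ?_⟩
  · unfold pie
    have h1 : ∀ θ ∈ desc K n 0 0, 𝓕⁻ (pcs (2 ^ (K * n)) o1 o2 g θ) z =
        ∫ ξ, Complex.exp (2 * Real.pi * (inner ℝ ξ z : ℝ) * I) • pcs (2 ^ (K * n)) o1 o2 g θ ξ := by
      intro θ _
      rw [Real.fourierInv_eq']
      simp only [ofReal_mul, ofReal_ofNat]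
    rw [Finset.sum_congr rfl h1, ← integral_finsetSum]
    · rw [Real.fourierInv_eq']
      congr 1; ext ξ
      rw [← Finset.smul_sum, sum_pcs H]
      simp only [ofReal_mul, ofReal_ofNat]
    · intro θ _
      refine (integrable_pcs hm hi θ).bdd_mul (c := 1) ?_ ?_
      · refine Continuous.aestronglyMeasurable ?_
        fun_prop
      · refine Filter.Eventually.of_forall fun ξ => ?_
        rw [show (2 * Real.pi * (inner ℝ ξ z : ℝ) * I : ℂ) = ((2 * Real.pi * inner ℝ ξ z : ℝ) : ℂ) * I by push_cast; ring,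
          Complex.norm_exp_ofReal_mul_I]
  · refine lt_of_le_of_lt (lintegral_mono fun ξ => ?_) H.ams.sq
    gcongr
    exact enorm_le_iff_norm_le.2 (norm_pcs_le _ _ _ _ _ _)
  · rw [← lintegral_finsetSum]
    · exact lintegral_mono fun ξ => sum_pcs_sq H ξ
    · intro θ _
      exact (measurable_pcs hm θ).enorm.pow_const 2

end Vale.Agent.P117.AN577
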