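import Vale.Agent.P122.AN.Defs
import Vale.Agent.P117.F837.Defs

/-! # P117 / AN577 : from the multiscale estimate `P122.AN.StE` (free pieces on a graph, slope cells) to `F837.StE3`
(stereographic pieces of the sphere, tube averages `den`). Literal statements of the blocks (helper577). -/

open MeasureTheory Complex Set
open scoped ENNReal NNReal ContDiff FourierTransform

set_option linter.all false

namespace Vale.Agent.P117.AN577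

open Vale.Agent.P122.C2 (Z2 fw fn)
open Vale.Agent.P122.AN (hz dv wg Srf Dat pie desc slp KTw enw StE)
open Vale.Agent.P117.K (E3 grd pc sl1 sl2 Ams den KTd)

/-- the upper hemisphere as a graph -/
noncomputable def hS (y : Fin 2 → ℝ) : ℝ := Real.sqrt (1 - y 0 ^ 2 - y 1 ^ 2)

/-- its slopes -/
noncomputable def vS (y : Fin 2 → ℝ) : Fin 2 → ℝ := fun i => y i / hS y

/-- the piece near `(4/9, 4/9, 7/9)` -/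
def QS : Set (Fin 2 → ℝ) := {y | ∀ i, |y i - 4 / 9| ≤ 1 / 50}

/-- slope index of the stereographic cap `k` -/
noncomputable def sidx (N : ℕ) (k : ℤ × ℤ) : Z2 := ![⌊(N:ℝ) * sl1 N k⌋, ⌊(N:ℝ) * sl2 N k⌋]

/-- the free pieces: all stereographic pieces with slope index `θ` -/
noncomputable def pcs (N : ℕ) (o1 o2 : ℝ) (g : E3 → ℂ) (θ : Z2) (ξ : E3) : ℂ := by
  classical exact ∑ k ∈ (grd N).filter (fun k => sidx N k = θ), pc N o1 o2 k g ξ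

/-- the common hypotheses -/
structure Hyp (c1 : ℝ) (K n : ℕ) (o1 o2 : ℝ) (g : E3 → ℂ) : Prop where
  big : 2 ^ 10 ≤ 2 ^ (K * n)
  c1pos : 0 < c1
  c1le : c1 ≤ 1 / 100
  ho1 : o1 ∈ Icc (0:ℝ) (1/2)
  ho2 : o2 ∈ Icc (0:ℝ) (1/2)
  ams : Ams c1 (2 ^ (K * n)) o1 o2 g

/-- [A1] the hemisphere near `(4/9, 4/9)` is an elliptic surface piece (helper590) -/
def StSph : Prop := ∃ C0 : ℝ, 1 ≤ C0 ∧ Srf C0 QS hS vS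

/-- [A2] the pieces live near their slope cells -/
def StDat : Prop := ∃ C0 : ℝ, 1 ≤ C0 ∧ ∀ (c1 : ℝ) (K n : ℕ) (o1 o2 : ℝ) (g : E3 → ℂ), Hyp c1 K n o1 o2 g →
  Dat C0 K n QS hS vS (pcs (2 ^ (K * n)) o1 o2 g)

/-- [A2'] the pieces decompose `g` orthogonally -/
def StDec : Prop := ∀ (c1 : ℝ) (K n : ℕ) (o1 o2 : ℝ) (g : E3 → ℂ), Hyp c1 K n o1 o2 g →
  (∀ z, pie K n (pcs (2 ^ (K * n)) o1 o2 g) 0 0 z = 𝓕⁻ g z) ∧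
  (∀ θ, ∫⁻ ξ, ‖pcs (2 ^ (K * n)) o1 o2 g θ ξ‖ₑ ^ 2 < ⊤) ∧
  ∑ θ ∈ desc K n 0 0, ∫⁻ ξ, ‖pcs (2 ^ (K * n)) o1 o2 g θ ξ‖ₑ ^ 2 ≤ ∫⁻ ξ, ‖g ξ‖ₑ ^ 2

/-- [A3] the Katz-Tao condition for the tube averages `den` gives the weighted one for the free pieces -/
def StKTr : Prop := ∀ M M0 : ℕ, 6 ≤ M → ∃ (M' : ℕ) (C : ℝ), M0 ≤ M' ∧ 0 ≤ C ∧
  ∀ (c1 : ℝ) (K n : ℕ) (o1 o2 : ℝ) (g : E3 → ℂ) (A : ℝ), Hyp c1 K n o1 o2 g → 0 ≤ A →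
    KTd (2 ^ (K * n)) A (den M' (2 ^ (K * n)) o1 o2 g) → KTw M K n (pcs (2 ^ (K * n)) o1 o2 g) (C * A)

/-- [A4] the multiscale estimate, global in space -/
def StEG : Prop := ∀ ε : ℝ, 0 < ε → ∃ K : ℕ, 1 ≤ K ∧ ∀ C0 : ℝ, 1 ≤ C0 → ∃ (M : ℕ) (C : ℝ), 6 ≤ M ∧ 0 ≤ C ∧ ∀ (n : ℕ)
    (Q : Set (Fin 2 → ℝ)) (h : (Fin 2 → ℝ) → ℝ) (v : (Fin 2 → ℝ) → Fin 2 → ℝ) (g : Z2 → E3 → ℂ) (Λ : ℝ),
    Srf C0 Q h v → Dat C0 K n Q h v g → (∀ θ, ∫⁻ ξ, ‖g θ ξ‖ₑ ^ 2 < ⊤) → 0 ≤ Λ → KTw M K n g Λ →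
    ∫⁻ z, ‖pie K n g 0 0 z‖ₑ ^ 3 ≤
      ENNReal.ofReal (C * 2 ^ (ε * (K * n)) * Real.sqrt Λ) * ∑ θ ∈ desc K n 0 0, ∫⁻ ξ, ‖g θ ξ‖ₑ ^ 2

/-- [A4] -/
def StLoc : Prop := StE → StEG

/-- [A5] the result of the block -/
def StAN117 : Prop := StE → F837.StE3

end Vale.Agent.P117.AN577
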