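import Vale.Agent.P117.AN577.Defs

/-! # P117 / AN577 : stereographic cells near `(1/4, 1/4)`, elementary bounds -/

open MeasureTheory Complex Set
open scoped ENNReal NNReal ContDiff FourierTransform

namespace Vale.Agent.P117.AN577

open Vale.Agent.P122.C2 (Z2 fw fn)
open Vale.Agent.P122.AN (hz dv wg Srf Dat pie desc slp KTw enw StE)
open Vale.Agent.P117.K (E3 grd pc sl1 sl2 Ams den KTd v1 v2 xist om omv)

theorem coord_le (ξ : E3) (i : Fin 3) : |ξ i| ≤ ‖ξ‖ := by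
  have := EuclideanSpace.norm_eq ξ
  rw [this]
  refine Real.le_sqrt_of_sq_le ?_
  rw [sq_abs]
  calc ξ i ^ 2 = ‖ξ i‖ ^ 2 := by rw [Real.norm_eq_abs, sq_abs]
    _ ≤ ∑ j, ‖ξ j‖ ^ 2 := Finset.single_le_sum (f := fun j => ‖ξ j‖ ^ 2) (fun j _ => by positivity) (Finset.mem_univ i)

theorem coord_sub_le (ξ η : E3) (i : Fin 3) : |ξ i - η i| ≤ ‖ξ - η‖ := by
  have := coord_le (ξ - η) i
  simpa using this

/-- position of the frequencies -/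
theorem pos_of_loc {c1 : ℝ} (hc : c1 ≤ 1 / 100) {ξ : E3} (h : ‖ξ - xist‖ ≤ c1) :
    |ξ 0 - 4 / 9| ≤ 1 / 100 ∧ |ξ 1 - 4 / 9| ≤ 1 / 100 ∧ |ξ 2 - 7 / 9| ≤ 1 / 100 := by
  have h0 := (coord_sub_le ξ xist 0).trans (h.trans hc)
  have h1 := (coord_sub_le ξ xist 1).trans (h.trans hc)
  have h2 := (coord_sub_le ξ xist 2).trans (h.trans hc)
  simp only [xist] at h0 h1 h2
  refine ⟨by simpa using h0, by simpa using h1, by simpa using h2⟩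

/-- stereographic coordinates of the frequencies -/
theorem v_of_pos {ξ : E3} (h : |ξ 0 - 4 / 9| ≤ 1 / 100 ∧ |ξ 1 - 4 / 9| ≤ 1 / 100 ∧ |ξ 2 - 7 / 9| ≤ 1 / 100) :
    |v1 ξ - 1 / 4| ≤ 3 / 400 ∧ |v2 ξ - 1 / 4| ≤ 3 / 400 := by
  obtain ⟨h0, h1, h2⟩ := h
  rw [abs_le] at h0 h1 h2
  have hp : (0:ℝ) < 1 + ξ 2 := by linarith
  constructor
  · rw [v1, abs_le]
    constructor
    · rw [neg_le_sub_iff_le_add, ← sub_le_iff_le_add, le_div_iff₀ hp]; nlinarith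
    · rw [sub_le_iff_le_add, div_le_iff₀ hp]; nlinarith
  · rw [v2, abs_le]
    constructor
    · rw [neg_le_sub_iff_le_add, ← sub_le_iff_le_add, le_div_iff₀ hp]; nlinarith
    · rw [sub_le_iff_le_add, div_le_iff₀ hp]; nlinarith

/-- the stereographic cell of a frequency -/
noncomputable def kx (N : ℕ) (o1 o2 : ℝ) (ξ : E3) : ℤ × ℤ := (⌊N * v1 ξ - o1⌋, ⌊N * v2 ξ - o2⌋)

/-- a floor cell coordinate -/
theorem cell_near {N : ℕ} (hN : 2 ^ 10 ≤ N) {o v : ℝ} (ho : o ∈ Icc (0:ℝ) (1/2)) (hv : |v - 1 / 4| ≤ 3 / 400) :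
    |((⌊N * v - o⌋ : ℤ) : ℝ) / N - v| ≤ 3 / 2 / N ∧ |((⌊N * v - o⌋ : ℤ) : ℝ) / N - 1 / 4| ≤ 1 / 100 := by
  have hNR : (1024:ℝ) ≤ N := by exact_mod_cast hN
  have hN0 : (0:ℝ) < N := by linarith
  have h1 := Int.floor_le ((N:ℝ) * v - o)
  have h2 := Int.lt_floor_add_one ((N:ℝ) * v - o)
  obtain ⟨ho1, ho2⟩ := ho
  have h3 : |((⌊N * v - o⌋ : ℤ) : ℝ) / N - v| ≤ 3 / 2 / N := by
    rw [abs_le]
    constructor
    · rw [neg_le_sub_iff_le_add, ← sub_le_iff_le_add, ← sub_nonneg]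
      have : ((⌊N * v - o⌋ : ℤ) : ℝ) / N - (v - 3 / 2 / N) = (((⌊N * v - o⌋ : ℤ) : ℝ) - (N * v - 3 / 2)) / N := by
        field_simp
      rw [this]; apply div_nonneg _ hN0.le; linarith
    · rw [sub_le_iff_le_add, ← sub_nonneg]
      have : 3 / 2 / N + v - ((⌊N * v - o⌋ : ℤ) : ℝ) / N = (3 / 2 + N * v - ((⌊N * v - o⌋ : ℤ) : ℝ)) / N := by
        field_simp
      rw [this]; apply div_nonneg _ hN0.le; linarith
  refine ⟨h3, ?_⟩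
  have h4 : 3 / 2 / (N:ℝ) ≤ 3 / 2 / 1024 := by gcongr
  have h5 := abs_sub_le (((⌊N * v - o⌋ : ℤ) : ℝ) / N) v (1 / 4)
  calc _ ≤ _ := h5
    _ ≤ 3 / 2 / 1024 + 3 / 400 := by linarith
    _ ≤ 1 / 100 := by norm_num

/-- the stereographic cells of the frequencies of `g` -/
theorem kx_near {c1 : ℝ} {K n : ℕ} {o1 o2 : ℝ} {g : E3 → ℂ} (H : Hyp c1 K n o1 o2 g) {ξ : E3} (hξ : g ξ ≠ 0) :
    |((kx (2 ^ (K * n)) o1 o2 ξ).1 : ℝ) / (2 ^ (K * n) : ℕ) - v1 ξ| ≤ 3 / 2 / (2 ^ (K * n) : ℕ) ∧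
    |((kx (2 ^ (K * n)) o1 o2 ξ).2 : ℝ) / (2 ^ (K * n) : ℕ) - v2 ξ| ≤ 3 / 2 / (2 ^ (K * n) : ℕ) ∧
    |((kx (2 ^ (K * n)) o1 o2 ξ).1 : ℝ) / (2 ^ (K * n) : ℕ) - 1 / 4| ≤ 1 / 100 ∧
    |((kx (2 ^ (K * n)) o1 o2 ξ).2 : ℝ) / (2 ^ (K * n) : ℕ) - 1 / 4| ≤ 1 / 100 := by
  obtain ⟨hv1, hv2⟩ := v_of_pos (pos_of_loc H.c1le (H.ams.loc ξ hξ))
  have ha := cell_near H.big H.ho1 hv1
  have hb := cell_near H.big H.ho2 hv2
  exact ⟨ha.1, hb.1, ha.2, hb.2⟩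

/-- a cell near `(1/4, 1/4)` is in the grid -/
theorem mem_grd {N : ℕ} (hN : 2 ^ 10 ≤ N) {k : ℤ × ℤ} (h1 : |(k.1:ℝ) / N - 1 / 4| ≤ 1 / 100)
    (h2 : |(k.2:ℝ) / N - 1 / 4| ≤ 1 / 100) : k ∈ grd N := by
  have hNR : (1024:ℝ) ≤ N := by exact_mod_cast hN
  have hN0 : (0:ℝ) < N := by linarith
  rw [abs_le] at h1 h2
  simp only [grd, Finset.mem_product, Finset.mem_Ico]
  have e1 : (0:ℝ) ≤ k.1 / N := by linarith
  have e2 : (k.1:ℝ) / N < 1 := by linarith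
  have e3 : (0:ℝ) ≤ k.2 / N := by linarith
  have e4 : (k.2:ℝ) / N < 1 := by linarith
  rw [le_div_iff₀ hN0, zero_mul] at e1 e3
  rw [div_lt_one hN0] at e2 e4
  exact ⟨⟨by exact_mod_cast e1, by exact_mod_cast e2⟩, ⟨by exact_mod_cast e3, by exact_mod_cast e4⟩⟩

/-- slopes of the cells near `(1/4, 1/4)` -/
theorem sl_near {N : ℕ} {k : ℤ × ℤ} (h1 : |(k.1:ℝ) / N - 1 / 4| ≤ 1 / 100)
    (h2 : |(k.2:ℝ) / N - 1 / 4| ≤ 1 / 100) :
    |sl1 N k - 4 / 7| ≤ 1 / 20 ∧ |sl2 N k - 4 / 7| ≤ 1 / 20 := by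
  rw [abs_le] at h1 h2
  have hp : (0:ℝ) < 1 - ((k.1:ℝ) / N) ^ 2 - ((k.2:ℝ) / N) ^ 2 := by nlinarith
  constructor
  · rw [sl1, abs_le]
    constructor
    · rw [neg_le_sub_iff_le_add, ← sub_le_iff_le_add, le_div_iff₀ hp]; nlinarith
    · rw [sub_le_iff_le_add, div_le_iff₀ hp]; nlinarith
  · rw [sl2, abs_le]
    constructor
    · rw [neg_le_sub_iff_le_add, ← sub_le_iff_le_add, le_div_iff₀ hp]; nlinarith
    · rw [sub_le_iff_le_add, div_le_iff₀ hp]; nlinarith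

/-- slope indices of the cells near `(1/4, 1/4)` -/
theorem sidx_mem {K n : ℕ} (hN : 2 ^ 10 ≤ 2 ^ (K * n)) {k : ℤ × ℤ} (h1 : |(k.1:ℝ) / (2 ^ (K * n) : ℕ) - 1 / 4| ≤ 1 / 100)
    (h2 : |(k.2:ℝ) / (2 ^ (K * n) : ℕ) - 1 / 4| ≤ 1 / 100) : sidx (2 ^ (K * n)) k ∈ desc K n 0 0 := by
  obtain ⟨hs1, hs2⟩ := sl_near h1 h2
  rw [abs_le] at hs1 hs2
  have hN0 : (0:ℝ) < (2 ^ (K * n) : ℕ) := by positivity
  simp only [desc, Fintype.mem_piFinset, Finset.mem_Ico, sidx, Nat.sub_zero]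
  intro j
  fin_cases j
  · simp only [Fin.zero_eta, Matrix.cons_val_zero, Pi.zero_apply, mul_zero, zero_add, mul_one]
    constructor
    · apply Int.floor_nonneg.2; exact mul_nonneg hN0.le (by linarith)
    · rw [Int.floor_lt]; push_cast; nlinarith [show (0:ℝ) < 2 ^ (K * n) by positivity]
  · simp only [Fin.mk_one, Matrix.cons_val_one, Matrix.cons_val_zero, Pi.zero_apply, mul_zero, zero_add, mul_one]
    constructor
    · apply Int.floor_nonneg.2; exact mul_nonneg hN0.le (by linarith)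
    · rw [Int.floor_lt]; push_cast; nlinarith [show (0:ℝ) < 2 ^ (K * n) by positivity]

/-- explicit form of the free pieces -/
theorem pcs_eq (N : ℕ) (o1 o2 : ℝ) (g : E3 → ℂ) (θ : Z2) (ξ : E3) :
    pcs N o1 o2 g θ ξ = open Classical in if kx N o1 o2 ξ ∈ grd N ∧ sidx N (kx N o1 o2 ξ) = θ then g ξ else 0 := by
  classical
  unfold pcs
  have : ∀ k ∈ (grd N).filter (fun k => sidx N k = θ), pc N o1 o2 k g ξ = if k = kx N o1 o2 ξ then g ξ else 0 := by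
    intro k _
    unfold pc kx
    simp only [eq_comm]
  rw [Finset.sum_congr rfl this, Finset.sum_ite_eq']
  simp only [Finset.mem_filter]

end Vale.Agent.P117.AN577
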