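import Vale.Agent.P117.AN577.Asm
import Vale.Agent.P117.AN577.Dec
import Vale.Agent.P117.AN572.Dat
import Vale.Agent.P117.AN590.Sph
import Vale.Agent.P117.F837.Glob
import Vale.Agent.P117.AN273.KTrFin

/-! # P117 / AN577 : AN-117 -/

namespace Vale.Agent.P117.AN577

theorem stAN117_of (h : StKTr) : StAN117 :=
  an117 AN590.stSph AN572.stDat stDec h F837.stLoc

theorem stAN117 : StAN117 := stAN117_of AN273.stKTr

end Vale.Agent.P117.AN577
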